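import Mathlib
import Vale.Agent.P260.H493.Spec2
import Vale.Agent.P260.H493.Basic

/-!
# P260 climb, module N1b: Poincare duality groups (of positive dimension) are infinite
-/

namespace Vale.Agent.P260.H237

open Vale.Agent.P260.H493 MonoidAlgebra

theorem single_mul_sum {k Γ : Type} [Field k] [Group Γ] [Fintype Γ] (g : Γ) (r : k) :
    single g r * (∑ x : Γ, single x (1 : k)) = r • ∑ x : Γ, single x (1 : k) := by
  rw [Finset.mul_sum, Finset.smul_sum]
  refine (Fintype.sum_equiv (Equiv.mulLeft g) _ _ fun x => ?_)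
  rw [single_mul_single, smul_single, Equiv.coe_mulLeft, mul_one, smul_eq_mul, mul_one]

theorem stmtInf : StmtInf := by
  intro k Γ _ _ m P
  by_contra hfin
  rw [not_infinite_iff_finite] at hfin
  cases nonempty_fintype Γ
  -- the functional `v ↦ ε(v) Σ g`
  have hs : ∀ (a : MonoidAlgebra k Γ) (v : Fin (P.r 0) → MonoidAlgebra k Γ),
      (P.ε (a • v)) • (∑ x : Γ, single x (1 : k)) = a * ((P.ε v) • ∑ x : Γ, single x (1 : k)) := by
    intro a v
    induction a using MonoidAlgebra.induction_linear with
    | zero => simp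
    | add a b ha hb => rw [add_smul, map_add, add_smul, ha, hb, add_mul]
    | single g r =>
      have h1 : P.ε (single g r • v) = r * P.ε v := by
        have h2 : single g r • v = r • (single g (1 : k) • v) := by
          rw [← smul_assoc, smul_single, smul_eq_mul, mul_one]
        rw [h2, map_smul, P.eps_smul, smul_eq_mul]
      rw [h1, mul_smul_comm, single_mul_sum, smul_smul, mul_comm]
  let φ : (Fin (P.r 0) → MonoidAlgebra k Γ) →ₗ[MonoidAlgebra k Γ] MonoidAlgebra k Γ :=
    { toFun := fun v => (P.ε v) • ∑ x : Γ, single x (1 : k)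
      map_add' := fun v w => by rw [map_add, add_smul]
      map_smul' := fun a v => by rw [hs, RingHom.id_apply, smul_eq_mul] }
  have hφ : φ = 0 := by
    refine P.co0 φ (LinearMap.ext fun w => ?_)
    have : P.ε (P.d 0 w) = 0 := (P.ex0 _).2 ⟨w, rfl⟩
    change (P.ε (P.d 0 w)) • (∑ x : Γ, single x (1 : k)) = 0
    rw [this, zero_smul]
  obtain ⟨v, hv⟩ := P.eps_surj 1
  have h0 := LinearMap.congr_fun hφ v
  change (P.ε v) • (∑ x : Γ, single x (1 : k)) = 0 at h0
  rw [hv, one_smul] at h0
  have h1 := congrArg (fun a : MonoidAlgebra k Γ => a.coeff 1) h0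
  classical
  simp [coeff_sum, Finsupp.single_apply] at h1

end Vale.Agent.P260.H237
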