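import Mathlib
import Vale.Agent.P260.H493.Spec
import Vale.Agent.P260.H493.Basic

/-!
# P260 climb, module M15: transport of a Poincare duality structure along a group isomorphism
-/

namespace Vale.Agent.P260.H237

open Vale.Agent.P260.H493 MonoidAlgebra

section

variable {k Γ Γ' : Type} [Field k] [Group Γ] [Group Γ'] (e : Γ ≃* Γ')

/-- the isomorphism of group algebras -/
noncomputable abbrev sg : MonoidAlgebra k Γ ≃ₐ[k] MonoidAlgebra k Γ' := MonoidAlgebra.domCongr k k e

/-- the isomorphism of free modules (entrywise), linear over `k` -/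
noncomputable def tv (ι : Type) : (ι → MonoidAlgebra k Γ) ≃ₗ[k] (ι → MonoidAlgebra k Γ') :=
  LinearEquiv.piCongrRight fun _ => (sg (k := k) e).toLinearEquiv

theorem tv_apply {ι : Type} (v : ι → MonoidAlgebra k Γ) (i : ι) :
    tv (k := k) e ι v i = sg e (v i) := rfl

theorem tv_symm_apply {ι : Type} (v : ι → MonoidAlgebra k Γ') (i : ι) :
    (tv (k := k) e ι).symm v i = (sg e).symm (v i) := rfl

theorem tv_smul {ι : Type} (a : MonoidAlgebra k Γ) (v : ι → MonoidAlgebra k Γ) :
    tv (k := k) e ι (a • v) = sg e a • tv e ι v := by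
  funext i
  simp only [tv_apply, Pi.smul_apply, smul_eq_mul, map_mul]

theorem tv_symm_smul {ι : Type} (a : MonoidAlgebra k Γ') (v : ι → MonoidAlgebra k Γ') :
    (tv (k := k) e ι).symm (a • v) = (sg e).symm a • (tv e ι).symm v := by
  funext i
  simp only [tv_symm_apply, Pi.smul_apply, smul_eq_mul, map_mul]

/-- transport of a linear map between free modules -/
noncomputable def tr {ι κ : Type}
    (T : (ι → MonoidAlgebra k Γ) →ₗ[MonoidAlgebra k Γ] (κ → MonoidAlgebra k Γ)) :
    (ι → MonoidAlgebra k Γ') →ₗ[MonoidAlgebra k Γ'] (κ → MonoidAlgebra k Γ') where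
  toFun v := tv e κ (T ((tv e ι).symm v))
  map_add' v w := by rw [map_add, map_add, map_add]
  map_smul' a v := by
    rw [tv_symm_smul, T.map_smul, tv_smul, AlgEquiv.apply_symm_apply, RingHom.id_apply]

@[simp] theorem tr_apply {ι κ : Type}
    (T : (ι → MonoidAlgebra k Γ) →ₗ[MonoidAlgebra k Γ] (κ → MonoidAlgebra k Γ))
    (v : ι → MonoidAlgebra k Γ') : tr e T v = tv e κ (T ((tv e ι).symm v)) := rfl

/-- transport of a functional -/
noncomputable def trF {ι : Type}
    (φ : (ι → MonoidAlgebra k Γ) →ₗ[MonoidAlgebra k Γ] MonoidAlgebra k Γ) :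
    (ι → MonoidAlgebra k Γ') →ₗ[MonoidAlgebra k Γ'] MonoidAlgebra k Γ' where
  toFun v := sg e (φ ((tv e ι).symm v))
  map_add' v w := by rw [map_add, map_add, map_add]
  map_smul' a v := by
    rw [tv_symm_smul, φ.map_smul, smul_eq_mul, map_mul, AlgEquiv.apply_symm_apply,
      RingHom.id_apply, smul_eq_mul]

@[simp] theorem trF_apply {ι : Type}
    (φ : (ι → MonoidAlgebra k Γ) →ₗ[MonoidAlgebra k Γ] MonoidAlgebra k Γ)
    (v : ι → MonoidAlgebra k Γ') : trF e φ v = sg e (φ ((tv e ι).symm v)) := rfl

/-- transport of a functional, backwards -/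
noncomputable def trB {ι : Type}
    (φ : (ι → MonoidAlgebra k Γ') →ₗ[MonoidAlgebra k Γ'] MonoidAlgebra k Γ') :
    (ι → MonoidAlgebra k Γ) →ₗ[MonoidAlgebra k Γ] MonoidAlgebra k Γ where
  toFun v := (sg e).symm (φ (tv e ι v))
  map_add' v w := by rw [map_add, map_add, map_add]
  map_smul' a v := by
    rw [tv_smul, φ.map_smul, smul_eq_mul, map_mul, AlgEquiv.symm_apply_apply,
      RingHom.id_apply, smul_eq_mul]

@[simp] theorem trB_apply {ι : Type}
    (φ : (ι → MonoidAlgebra k Γ') →ₗ[MonoidAlgebra k Γ'] MonoidAlgebra k Γ')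
    (v : ι → MonoidAlgebra k Γ) : trB e φ v = (sg e).symm (φ (tv e ι v)) := rfl

/-- transport of the duality structure -/
noncomputable def congr {m : ℕ} (P : PDG k Γ m) : PDG k Γ' m where
  r := P.r
  d i := tr e (P.d i)
  π := tr e P.π
  ε := P.ε ∘ₗ (tv (k := k) e (Fin (P.r 0))).symm.toLinearMap
  eps_smul g v := by
    simp only [LinearMap.comp_apply, LinearEquiv.coe_coe]
    rw [tv_symm_smul]
    have h : (sg (k := k) e).symm (single g (1 : k)) = single (e.symm g) 1 := by
      rw [AlgEquiv.symm_apply_eq, MonoidAlgebra.domCongr_single, MulEquiv.apply_symm_apply]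
    rw [h, P.eps_smul]
  eps_surj := P.eps_surj.comp (tv (k := k) e (Fin (P.r 0))).symm.surjective
  ex0 v := by
    simp only [LinearMap.comp_apply, LinearEquiv.coe_coe, tr_apply]
    rw [P.ex0]
    constructor
    · rintro ⟨w, hw⟩
      exact ⟨tv e _ w, by rw [LinearEquiv.symm_apply_apply, hw, LinearEquiv.apply_symm_apply]⟩
    · rintro ⟨w, hw⟩
      exact ⟨(tv e _).symm w, by rw [← hw, LinearEquiv.symm_apply_apply]⟩
  ex i hi v := by
    simp only [tr_apply, LinearEquiv.map_eq_zero_iff]
    rw [P.ex i hi]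
    constructor
    · rintro ⟨w, hw⟩
      exact ⟨tv e _ w, by rw [LinearEquiv.symm_apply_apply, hw, LinearEquiv.apply_symm_apply]⟩
    · rintro ⟨w, hw⟩
      exact ⟨(tv e _).symm w, by rw [← hw, LinearEquiv.symm_apply_apply]⟩
  pi_pi v := by simp only [tr_apply, LinearEquiv.symm_apply_apply, P.pi_pi]
  d_pi v := by simp only [tr_apply, LinearEquiv.symm_apply_apply, P.d_pi]
  ex_top v := by
    simp only [tr_apply, LinearEquiv.map_eq_zero_iff]
    exact P.ex_top _
  co0 φ hφ := by
    have h : trB e φ = 0 := by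
      refine P.co0 _ (LinearMap.ext fun v => ?_)
      have := LinearMap.congr_fun hφ (tv e _ v)
      simp only [LinearMap.comp_apply, tr_apply, LinearEquiv.symm_apply_apply,
        LinearMap.zero_apply] at this
      simp only [LinearMap.comp_apply, trB_apply, this, map_zero, LinearMap.zero_apply]
    refine LinearMap.ext fun v => ?_
    have := LinearMap.congr_fun h ((tv e _).symm v)
    simpa only [trB_apply, LinearEquiv.apply_symm_apply, LinearMap.zero_apply,
      EmbeddingLike.map_eq_zero_iff] using this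
  co i hi φ hφ := by
    obtain ⟨χ, hχ⟩ := P.co i hi (trB e φ) (by
      refine LinearMap.ext fun v => ?_
      have := LinearMap.congr_fun hφ (tv e _ v)
      simp only [LinearMap.comp_apply, tr_apply, LinearEquiv.symm_apply_apply,
        LinearMap.zero_apply] at this
      simp only [LinearMap.comp_apply, trB_apply, this, map_zero, LinearMap.zero_apply])
    refine ⟨trF e χ, LinearMap.ext fun v => ?_⟩
    have := LinearMap.congr_fun hχ ((tv e _).symm v)
    simp only [trB_apply, LinearEquiv.apply_symm_apply, LinearMap.comp_apply] at this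
    simp only [LinearMap.comp_apply, trF_apply, tr_apply, LinearEquiv.symm_apply_apply]
    rw [← this, AlgEquiv.apply_symm_apply]
  co_top := by
    obtain ⟨φ₀, h1, h2, h3⟩ := P.co_top
    refine ⟨trF e φ₀, ?_, ?_, ?_⟩
    · refine LinearMap.ext fun v => ?_
      have := LinearMap.congr_fun h1 ((tv e _).symm v)
      simp only [LinearMap.comp_apply] at this
      simp only [LinearMap.comp_apply, trF_apply, tr_apply, LinearEquiv.symm_apply_apply, this]
    · rintro ⟨χ, hχ⟩
      refine h2 ⟨trB e χ, LinearMap.ext fun v => ?_⟩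
      have := LinearMap.congr_fun hχ (tv e _ v)
      simp only [LinearMap.comp_apply, trF_apply, tr_apply, LinearEquiv.symm_apply_apply] at this
      simp only [LinearMap.comp_apply, trB_apply]
      rw [← this, AlgEquiv.symm_apply_apply]
    · intro φ hφ
      obtain ⟨c, χ, hc⟩ := h3 (trB e φ) (by
        refine LinearMap.ext fun v => ?_
        have := LinearMap.congr_fun hφ (tv e _ v)
        simp only [LinearMap.comp_apply, tr_apply, LinearEquiv.symm_apply_apply] at this
        simp only [LinearMap.comp_apply, trB_apply, this])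
      refine ⟨c, trF e χ, fun v => ?_⟩
      have := hc ((tv e _).symm v)
      simp only [trB_apply, LinearEquiv.apply_symm_apply] at this
      simp only [trF_apply, tr_apply, LinearEquiv.symm_apply_apply]
      rw [AlgEquiv.symm_apply_eq] at this
      rw [this, map_add, map_smul]

end

/-- M15 -/
theorem stmtCongr : StmtCongr := fun _ _ _ _ _ _ e _ P => ⟨congr e P⟩

end Vale.Agent.P260.H237
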